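import Vale.Agent.P122.E.Defs

/-! # P122 / E5 : densities in dilated planks (helper327) -/

set_option autoImplicit false

namespace Vale.Agent.P122.E

open Filter Topology Finset Vale.Agent.P127 Vale.Agent.P127.Stk Vale.Agent.P127.U Vale.Agent.P127.U.Sys Vale.Agent.P122.C2

/-- the vector with frame coordinates `(x, y)` -/
noncomputable def fr327 (θ x y : ℝ) : Fin 2 → ℝ :=
  fun k => if k = 0 then Real.cos θ * x - Real.sin θ * y else Real.sin θ * x + Real.cos θ * y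

theorem fw_fr327 (θ x y : ℝ) : fw θ (fr327 θ x y) = x := by
  have h := Real.sin_sq_add_cos_sq θ
  have e0 : fr327 θ x y 0 = Real.cos θ * x - Real.sin θ * y := if_pos rfl
  have e1 : fr327 θ x y 1 = Real.sin θ * x + Real.cos θ * y := if_neg (by decide)
  rw [fw, e0, e1]
  linear_combination x * h

theorem fn_fr327 (θ x y : ℝ) : fn θ (fr327 θ x y) = y := by
  have h := Real.sin_sq_add_cos_sq θ
  have e0 : fr327 θ x y 0 = Real.cos θ * x - Real.sin θ * y := if_pos rfl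
  have e1 : fr327 θ x y 1 = Real.sin θ * x + Real.cos θ * y := if_neg (by decide)
  rw [fn, e0, e1]
  linear_combination y * h

theorem fw_sub327 (θ : ℝ) (a b : Fin 2 → ℝ) : fw θ (fun j => a j - b j) = fw θ a - fw θ b := by
  simp only [fw]; ring

theorem fn_sub327 (θ : ℝ) (a b : Fin 2 → ℝ) : fn θ (fun j => a j - b j) = fn θ a - fn θ b := by
  simp only [fn]; ring

theorem fw_add327 (θ : ℝ) (a b : Fin 2 → ℝ) : fw θ (fun j => a j + b j) = fw θ a + fw θ b := by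
  simp only [fw]; ring

theorem fn_add327 (θ : ℝ) (a b : Fin 2 → ℝ) : fn θ (fun j => a j + b j) = fn θ a + fn θ b := by
  simp only [fn]; ring

theorem fw_smul327 (θ c : ℝ) (a : Fin 2 → ℝ) : fw θ (fun j => c * a j) = c * fw θ a := by
  simp only [fw]; ring

theorem fn_smul327 (θ c : ℝ) (a : Fin 2 → ℝ) : fn θ (fun j => c * a j) = c * fn θ a := by
  simp only [fn]; ring

theorem abs_fw_le327 {θ B : ℝ} {a : Fin 2 → ℝ} (h : ∀ k, |a k| ≤ B) : |fw θ a| ≤ 2 * B := by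
  have h0 := h 0
  have h1 := h 1
  have hc := Real.abs_cos_le_one θ
  have hs := Real.abs_sin_le_one θ
  simp only [fw]
  calc |Real.cos θ * a 0 + Real.sin θ * a 1| ≤ |Real.cos θ| * |a 0| + |Real.sin θ| * |a 1| := by
        rw [← abs_mul, ← abs_mul]; exact abs_add_le _ _
    _ ≤ 1 * B + 1 * B := by gcongr
    _ = 2 * B := by ring

theorem abs_fn_le327 {θ B : ℝ} {a : Fin 2 → ℝ} (h : ∀ k, |a k| ≤ B) : |fn θ a| ≤ 2 * B := by
  have h0 := h 0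
  have h1 := h 1
  have hc := Real.abs_cos_le_one θ
  have hs := Real.abs_sin_le_one θ
  simp only [fn]
  calc |-Real.sin θ * a 0 + Real.cos θ * a 1| ≤ |Real.sin θ| * |a 0| + |Real.cos θ| * |a 1| := by
        rw [← abs_mul, ← abs_mul]
        calc |-Real.sin θ * a 0 + Real.cos θ * a 1| ≤ |-Real.sin θ * a 0| + |Real.cos θ * a 1| := abs_add_le _ _
          _ = _ := by rw [neg_mul, abs_neg]
    _ ≤ 1 * B + 1 * B := by gcongr
    _ = 2 * B := by ring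

/-- label of a number in `[-A u, A u]` -/
theorem label_mem327 {A u x : ℝ} (hu : 0 < u) (hx : |x| ≤ A * u) :
    ⌊(x / u + A) / 2⌋₊ ∈ range (⌊A⌋₊ + 1) := by
  rw [mem_range, Nat.lt_succ_iff]
  apply Nat.floor_le_floor
  have h1 : x ≤ A * u := (le_abs_self x).trans hx
  have h2 : x / u ≤ A := by rwa [div_le_iff₀ hu]
  linarith

theorem label_near327 {A u x : ℝ} (hu : 0 < u) (hx : |x| ≤ A * u) :
    |x - (2 * (⌊(x / u + A) / 2⌋₊ : ℝ) + 1 - A) * u| ≤ u := by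
  have h1 : -(A * u) ≤ x := (abs_le.1 hx).1
  have h2 : -A ≤ x / u := by rw [le_div_iff₀ hu]; linarith
  have h3 : (⌊(x / u + A) / 2⌋₊ : ℝ) ≤ (x / u + A) / 2 := Nat.floor_le (by linarith)
  have h4 : (x / u + A) / 2 < ⌊(x / u + A) / 2⌋₊ + 1 := Nat.lt_floor_add_one _
  have h5 : x = (x / u) * u := by field_simp
  have h6 : x - (2 * (⌊(x / u + A) / 2⌋₊ : ℝ) + 1 - A) * u =
      (x / u - (2 * (⌊(x / u + A) / 2⌋₊ : ℝ) + 1 - A)) * u := by
    rw [sub_mul (x / u), ← h5]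
  rw [h6, abs_mul, abs_of_pos hu]
  have h7 : |x / u - (2 * (⌊(x / u + A) / 2⌋₊ : ℝ) + 1 - A)| ≤ 1 := by
    rw [abs_le]; constructor <;> linarith
  calc _ ≤ 1 * u := by gcongr
    _ = u := one_mul u

/-- **densities in dilated planks** -/
theorem Dens.dil327 {s : ℕ → Z2 → Fin 2 → ℝ} {n c : ℕ} {D : Set Nd} {lam : ℝ} (h : Dens s n c D lam)
    {θ u1 u2 A1 A2 : ℝ} (p v : Fin 2 → ℝ) (T : ℤ) (U : Finset Nd) (h1 : (1 / 2 : ℝ) ^ (c * n) ≤ u1)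
    (h12 : u1 ≤ u2) (h2 : u2 ≤ 1) (hA1 : 0 ≤ A1) (hA2 : 0 ≤ A2)
    (hU : ∀ S ∈ U, S ∈ D ∧ S.T = T ∧ |fw θ (fun j => (S.o j : ℝ) / 2 ^ (c * n) - p j)| ≤ A1 * u2 ∧
      |fn θ (fun j => (S.o j : ℝ) / 2 ^ (c * n) - p j)| ≤ A1 * u1 ∧
      |fw θ (fun j => s c S.τ j - v j)| ≤ A2 * u2 ∧ |fn θ (fun j => s c S.τ j - v j)| ≤ A2 * u1) :
    (U.card : ℝ) ≤ (A1 + 1) ^ 2 * (A2 + 1) ^ 2 * (lam * (u1 * u2 * 2 ^ (2 * c * n))) := by
  classical
  have hu1 : 0 < u1 := lt_of_lt_of_le (by positivity) h1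
  have hu2 : 0 < u2 := hu1.trans_le h12
  set f : Nd → (ℕ × ℕ) × (ℕ × ℕ) := fun S =>
    ((⌊(fw θ (fun j => (S.o j : ℝ) / 2 ^ (c * n) - p j) / u2 + A1) / 2⌋₊,
      ⌊(fn θ (fun j => (S.o j : ℝ) / 2 ^ (c * n) - p j) / u1 + A1) / 2⌋₊),
     (⌊(fw θ (fun j => s c S.τ j - v j) / u2 + A2) / 2⌋₊, ⌊(fn θ (fun j => s c S.τ j - v j) / u1 + A2) / 2⌋₊)) with hf
  set t : Finset ((ℕ × ℕ) × (ℕ × ℕ)) :=
    (range (⌊A1⌋₊ + 1) ×ˢ range (⌊A1⌋₊ + 1)) ×ˢ (range (⌊A2⌋₊ + 1) ×ˢ range (⌊A2⌋₊ + 1)) with ht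
  have hft : ∀ S ∈ U, f S ∈ t := by
    intro S hS
    obtain ⟨-, -, ha, hb, hc, hd⟩ := hU S hS
    simp only [ht, hf, mem_product]
    exact ⟨⟨label_mem327 hu2 ha, label_mem327 hu1 hb⟩, label_mem327 hu2 hc, label_mem327 hu1 hd⟩
  have hX : 0 ≤ lam * (u1 * u2 * 2 ^ (2 * c * n)) := by
    simpa using h θ u1 u2 p v T ∅ h1 h12 h2 (by simp)
  have hfib : ∀ k ∈ t, ((U.filter fun S => f S = k).card : ℝ) ≤ lam * (u1 * u2 * 2 ^ (2 * c * n)) := by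
    rintro ⟨⟨k1, k2⟩, k3, k4⟩ -
    refine h θ u1 u2
      (fun j => p j + fr327 θ ((2 * (k1 : ℝ) + 1 - A1) * u2) ((2 * (k2 : ℝ) + 1 - A1) * u1) j)
      (fun j => v j + fr327 θ ((2 * (k3 : ℝ) + 1 - A2) * u2) ((2 * (k4 : ℝ) + 1 - A2) * u1) j) T _ h1 h12 h2 ?_
    intro S hS
    rw [mem_filter] at hS
    obtain ⟨hSD, hST, ha, hb, hc, hd⟩ := hU S hS.1
    have hk := hS.2
    simp only [hf, Prod.mk.injEq] at hk
    obtain ⟨⟨e1, e2⟩, e3, e4⟩ := hk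
    have ka := label_near327 hu2 ha
    have kb := label_near327 hu1 hb
    have kc := label_near327 hu2 hc
    have kd := label_near327 hu1 hd
    rw [e1] at ka
    rw [e2] at kb
    rw [e3] at kc
    rw [e4] at kd
    refine ⟨hSD, hST, ?_, ?_, ?_, ?_⟩
    · rw [fw_sub327, fw_add327, fw_fr327, ← sub_sub, ← fw_sub327]; exact ka
    · rw [fn_sub327, fn_add327, fn_fr327, ← sub_sub, ← fn_sub327]; exact kb
    · rw [fw_sub327, fw_add327, fw_fr327, ← sub_sub, ← fw_sub327]; exact kc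
    · rw [fn_sub327, fn_add327, fn_fr327, ← sub_sub, ← fn_sub327]; exact kd
  have hsum : U.card = ∑ k ∈ t, (U.filter fun S => f S = k).card := card_eq_sum_card_fiberwise hft
  have htc : (t.card : ℝ) ≤ (A1 + 1) ^ 2 * (A2 + 1) ^ 2 := by
    rw [ht]
    simp only [card_product, card_range]
    push_cast
    have e1 : (⌊A1⌋₊ : ℝ) ≤ A1 := Nat.floor_le hA1
    have e2 : (⌊A2⌋₊ : ℝ) ≤ A2 := Nat.floor_le hA2
    calc ((⌊A1⌋₊ : ℝ) + 1) * ((⌊A1⌋₊ : ℝ) + 1) * (((⌊A2⌋₊ : ℝ) + 1) * ((⌊A2⌋₊ : ℝ) + 1)) ≤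
        (A1 + 1) * (A1 + 1) * ((A2 + 1) * (A2 + 1)) := by gcongr
      _ = _ := by ring
  calc (U.card : ℝ) = ∑ k ∈ t, ((U.filter fun S => f S = k).card : ℝ) := by rw [hsum]; push_cast; rfl
    _ ≤ ∑ _k ∈ t, lam * (u1 * u2 * 2 ^ (2 * c * n)) := sum_le_sum hfib
    _ = t.card * (lam * (u1 * u2 * 2 ^ (2 * c * n))) := by rw [sum_const, nsmul_eq_mul]
    _ ≤ _ := by gcongr

end Vale.Agent.P122.E
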