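import Vale.Agent.P122.H327.Cov
import Vale.Agent.P122.H377.E5Cut

/-! # P122 / E5 : a bound of the densities at the level `i` gives a bound at the higher level `j` (helper327) -/

set_option autoImplicit false

namespace Vale.Agent.P122.E

open Filter Topology Finset Vale.Agent.P127 Vale.Agent.P127.Stk Vale.Agent.P127.U Vale.Agent.P127.U.Sys Vale.Agent.P122.C2

/-- the tubes `S`, `S'` of levels `i ≤ j` belong to one flag -/
structure GP327 (s : ℕ → Z2 → Fin 2 → ℝ) (n i j : ℕ) (C : ℝ) (S S' : Nd) : Prop where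
  T : S.T / 2 ^ (2 * (j - i) * n) = S'.T
  τ : ∀ k, S'.τ k / 2 ^ ((j - i) * n) = S.τ k
  sl : ∀ k, |s j S'.τ k - s i S.τ k| ≤ C / 2 ^ (i * n)
  o : ∀ k, |(2:ℝ) ^ (i * n) * (S.o k : ℝ) - (2 ^ (j * n) * (S'.o k : ℝ) +
    ((S.T : ℝ) * 2 ^ (2 * i * n) - (S'.T : ℝ) * 2 ^ (2 * j * n)) * s j S'.τ k)| ≤ C * 2 ^ (j * n)
  t0 : 0 ≤ (S.T : ℝ) * 2 ^ (2 * i * n) - (S'.T : ℝ) * 2 ^ (2 * j * n)
  t1 : (S.T : ℝ) * 2 ^ (2 * i * n) - (S'.T : ℝ) * 2 ^ (2 * j * n) ≤ 2 ^ (2 * j * n)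

section

variable {s : ℕ → Z2 → Fin 2 → ℝ} {n i j : ℕ} {C : ℝ}

theorem pow_q327 (hij : i ≤ j) : (2:ℝ) ^ (j * n) = 2 ^ ((j - i) * n) * 2 ^ (i * n) := by
  rw [← pow_add, ← add_mul, Nat.sub_add_cancel hij]

theorem pow_q2_327 (hij : i ≤ j) : (2:ℝ) ^ (2 * j * n) = (2 ^ ((j - i) * n)) ^ 2 * 2 ^ (2 * i * n) := by
  rw [← pow_mul, ← pow_add]
  congr 1
  obtain ⟨d, rfl⟩ := Nat.exists_eq_add_of_le hij
  rw [Nat.add_sub_cancel_left]
  ring

theorem ico_div327 {x y : ℤ} {m : ℕ} (h : x / 2 ^ m = y) : x ∈ Ico (2 ^ m * y) (2 ^ m * (y + 1)) := by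
  have h2 : (0:ℤ) < 2 ^ m := by positivity
  rw [mem_Ico]
  have h3 := Int.emod_add_mul_ediv x (2 ^ m)
  have h4 := Int.emod_nonneg x h2.ne'
  have h5 := Int.emod_lt_of_pos x h2
  rw [h] at h3
  constructor <;> nlinarith

theorem card_ico327 (y : ℤ) (m : ℕ) : (Ico (2 ^ m * y) (2 ^ m * (y + 1))).card = 2 ^ m := by
  rw [Int.card_Ico]
  have : (2:ℤ) ^ m * (y + 1) - 2 ^ m * y = ((2 ^ m : ℕ) : ℤ) := by push_cast; ring
  rw [this, Int.toNat_natCast]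

/-- number of tubes of level `j` for one tube of level `i` -/
theorem fib_card327 (S : Nd) (U : Finset Nd) (hU : ∀ S' ∈ U, GP327 s n i j C S S') :
    U.card ≤ (2 ^ ((j - i) * n)) ^ 2 * (2 * ⌈C⌉₊ + 2) ^ 2 := by
  classical
  set T' : ℤ := S.T / 2 ^ (2 * (j - i) * n) with hT'
  set X : Fin 2 → Z2 → ℝ := fun k τ' => (2 ^ (i * n) * (S.o k : ℝ) -
    ((S.T : ℝ) * 2 ^ (2 * i * n) - (T' : ℝ) * 2 ^ (2 * j * n)) * s j τ' k) / 2 ^ (j * n) with hX
  set g : Nd → (ℤ × ℤ) × (ℤ × ℤ) := fun S' =>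
    ((S'.τ 0, S'.τ 1), (S'.o 0 - ⌊X 0 S'.τ⌋, S'.o 1 - ⌊X 1 S'.τ⌋)) with hg
  set N : ℤ := (⌈C⌉₊ : ℤ) with hN
  have hCN : C ≤ (N : ℝ) := by
    rw [hN]; push_cast; exact Nat.le_ceil C
  have hpos : (0:ℝ) < 2 ^ (j * n) := by positivity
  have hmem : ∀ S' ∈ U, ∀ k, S'.o k - ⌊X k S'.τ⌋ ∈ Icc (-N) (N + 1) := by
    intro S' hS' k
    have h := hU S' hS'
    have h1 := h.o k
    rw [← h.T, ← hT'] at h1
    have h2 : |(S'.o k : ℝ) - X k S'.τ| ≤ C := by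
      have h3 : (S'.o k : ℝ) - X k S'.τ = -((2:ℝ) ^ (i * n) * (S.o k : ℝ) - (2 ^ (j * n) * (S'.o k : ℝ) +
        ((S.T : ℝ) * 2 ^ (2 * i * n) - (T' : ℝ) * 2 ^ (2 * j * n)) * s j S'.τ k)) / 2 ^ (j * n) := by
        simp only [hX]
        field_simp
        ring
      rw [h3, abs_div, abs_neg, abs_of_pos hpos, div_le_iff₀ hpos]
      exact h1
    have h4 := abs_le.1 h2
    have h5 := Int.floor_le (X k S'.τ)
    have h6 := Int.lt_floor_add_one (X k S'.τ)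
    rw [mem_Icc]
    constructor
    · have : (-(N:ℝ)) ≤ ((S'.o k - ⌊X k S'.τ⌋ : ℤ) : ℝ) := by push_cast; linarith [h4.1]
      exact_mod_cast this
    · have : ((S'.o k - ⌊X k S'.τ⌋ : ℤ) : ℝ) < ((N + 1 + 1 : ℤ) : ℝ) ∨ True := Or.inr trivial
      have h7 : ((S'.o k - ⌊X k S'.τ⌋ : ℤ) : ℝ) < ((N + 1 : ℤ) : ℝ) := by push_cast; linarith [h4.2]
      exact (Int.cast_lt.1 h7).le
  set t : Finset ((ℤ × ℤ) × (ℤ × ℤ)) :=
    (Ico (2 ^ ((j - i) * n) * S.τ 0) (2 ^ ((j - i) * n) * (S.τ 0 + 1)) ×ˢ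
      Ico (2 ^ ((j - i) * n) * S.τ 1) (2 ^ ((j - i) * n) * (S.τ 1 + 1))) ×ˢ
    (Icc (-N) (N + 1) ×ˢ Icc (-N) (N + 1)) with ht
  have h1 : Set.MapsTo g U t := by
    intro S' hS'
    have hS'' : S' ∈ U := hS'
    have h := hU S' hS''
    simp only [ht, hg, coe_product, Set.mem_prod, mem_coe]
    exact ⟨⟨ico_div327 (h.τ 0), ico_div327 (h.τ 1)⟩, hmem S' hS'' 0, hmem S' hS'' 1⟩
  have h2 : Set.InjOn g U := by
    intro S' hS' S'' hS'' h
    have hS1 : S' ∈ U := hS'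
    have hS2 : S'' ∈ U := hS''
    simp only [hg, Prod.mk.injEq] at h
    obtain ⟨⟨e0, e1⟩, e2, e3⟩ := h
    have hτ : S'.τ = S''.τ := by
      funext k
      fin_cases k
      · exact e0
      · exact e1
    rw [hτ] at e2 e3
    have ho : S'.o = S''.o := by
      funext k
      fin_cases k
      · show S'.o 0 = S''.o 0
        linarith
      · show S'.o 1 = S''.o 1
        linarith
    exact Nd.ext hτ ho ((hU S' hS1).T.symm.trans (hU S'' hS2).T)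
  have h3 := card_le_card_of_injOn g h1 h2
  refine h3.trans (le_of_eq ?_)
  have h4 : (Icc (-N) (N + 1)).card = 2 * ⌈C⌉₊ + 2 := by
    rw [Int.card_Icc]
    have : N + 1 + 1 - -N = ((2 * ⌈C⌉₊ + 2 : ℕ) : ℤ) := by rw [hN]; push_cast; ring
    rw [this, Int.toNat_natCast]
  rw [ht, card_product, card_product, card_product, card_ico327, card_ico327, h4]
  ring

end

/-- **(down), geometric form** -/
theorem dn_dens327 {s : ℕ → Z2 → Fin 2 → ℝ} {n i j : ℕ} {C : ℝ} (hC : 1 ≤ C) (hij : i ≤ j) (R : Set (Nd × Nd))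
    (hR : ∀ x ∈ R, GP327 s n i j C x.1 x.2) {lam : ℝ} (hlam : 0 ≤ lam) (hD : Dens s n i {S | ∃ S', (S, S') ∈ R} lam) :
    Dens s n j {S' | ∃ S, (S, S') ∈ R}
      ((2 * (⌈C⌉₊ : ℝ) + 2) ^ 2 * (3 + 2 * C) ^ 2 * (2 + 2 * C) ^ 2 * (2 ^ ((j - i) * n)) ^ 10 * lam) := by
  classical
  intro θ u1 u2 p v T U h1 h12 h2 hU
  set q : ℝ := 2 ^ ((j - i) * n) with hq
  have hq1 : 1 ≤ q := one_le_pow₀ (by norm_num)
  have hq0 : 0 < q := by linarith
  set a : ℝ := 2 ^ (i * n) with ha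
  have ha0 : 0 < a := by positivity
  have hb : (2:ℝ) ^ (j * n) = q * a := pow_q327 hij
  have ha2 : (2:ℝ) ^ (2 * i * n) = a ^ 2 := by rw [ha, ← pow_mul]; congr 1; ring
  have hb2 : (2:ℝ) ^ (2 * j * n) = q ^ 2 * a ^ 2 := by rw [pow_q2_327 hij, ha2]
  have hu1 : 0 < u1 := lt_of_lt_of_le (by positivity) h1
  have hu2 : 0 < u2 := hu1.trans_le h12
  have h1' : 1 ≤ u1 * (q * a) := by
    rw [one_div, inv_pow, hb] at h1
    rwa [inv_le_iff_one_le_mul₀ (by positivity)] at h1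
  -- widths at the level `i`
  set w1 : ℝ := min 1 (q * u1) with hw1
  set w2 : ℝ := min 1 (q * u2) with hw2
  have hw12 : w1 ≤ w2 := min_le_min le_rfl (by gcongr)
  have hw2' : w2 ≤ 1 := min_le_left _ _
  have hw1' : (1 / 2 : ℝ) ^ (i * n) ≤ w1 := by
    refine le_min (pow_le_one₀ (by norm_num) (by norm_num)) ?_
    rw [one_div, inv_pow, ← ha, inv_le_iff_one_le_mul₀ ha0]
    linarith
  have hu1w : u1 ≤ w1 := le_min (h12.trans h2) (by nlinarith)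
  have hu2w : u2 ≤ w2 := le_min h2 (by nlinarith)
  have hw1q : w1 ≤ q * u1 := min_le_right _ _
  have hw2q : w2 ≤ q * u2 := min_le_right _ _
  have hw1p : 0 < w1 := hu1.trans_le hu1w
  have hw2p : 0 < w2 := hu2.trans_le hu2w
  -- choice of the tubes of level `i`
  have hch : ∀ S' ∈ U, ∃ S, (S, S') ∈ R := fun S' hS' => (hU S' hS').1
  choose! g hg using hch
  have hfib : ∀ S ∈ U.image g, (U.filter fun x => g x = S).card ≤
      (2 ^ ((j - i) * n)) ^ 2 * (2 * ⌈C⌉₊ + 2) ^ 2 := by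
    intro S _
    refine fib_card327 (s := s) (i := i) (j := j) S _ fun S' hS' => ?_
    rw [mem_filter] at hS'
    have := hR _ (hg S' hS'.1)
    rw [← hS'.2]
    exact this
  have hc1 := card_le_mul_card_image (f := g) U _ hfib
  -- the tubes of level `i`
  set V := U.image g with hV
  have hVT : ∀ S ∈ V, S.T ∈ Ico (2 ^ (2 * (j - i) * n) * T) (2 ^ (2 * (j - i) * n) * (T + 1)) := by
    intro S hS
    obtain ⟨S', hS', rfl⟩ := mem_image.1 hS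
    have h3 := (hR _ (hg S' hS')).T
    rw [(hU S' hS').2.1] at h3
    exact ico_div327 h3
  have hVf : ∀ t ∈ Ico (2 ^ (2 * (j - i) * n) * T) (2 ^ (2 * (j - i) * n) * (T + 1)),
      ((V.filter fun S => S.T = t).card : ℝ) ≤
        ((2 + 2 * C) * q ^ 2 + 1) ^ 2 * ((1 + 2 * C) * q + 1) ^ 2 * (lam * (w1 * w2 * 2 ^ (2 * i * n))) := by
    intro t ht
    set e : ℝ := (t : ℝ) * 2 ^ (2 * i * n) - (T : ℝ) * 2 ^ (2 * j * n) with he
    refine hD.dil327 (θ := θ) (fun k => q ^ 2 * p k + e / a ^ 2 * v k) v t _ hw1' hw12 hw2' (by positivity)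
      (by positivity) ?_
    intro S hS
    rw [mem_filter] at hS
    obtain ⟨S', hS', hSS⟩ := mem_image.1 hS.1
    have hr := hg S' hS'
    have hgp := hR _ hr
    rw [hSS] at hr hgp
    obtain ⟨-, hS'T, p1, p2, p3, p4⟩ := hU S' hS'
    have e0 := hgp.t0
    have e1 := hgp.t1
    have eo := hgp.o
    simp only at e0 e1 eo
    rw [hS.2, hS'T, ← he] at e0 e1
    rw [hS.2, hS'T] at eo
    simp only [← he] at eo
    have he1 : e / a ^ 2 ≤ q ^ 2 := by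
      rw [div_le_iff₀ (by positivity), ← hb2]; exact e1
    have he0 : 0 ≤ e / a ^ 2 := div_nonneg e0 (by positivity)
    -- the error vector
    have herr : ∀ k, |(S.o k : ℝ) / a - (q ^ 2 * p k + e / a ^ 2 * v k) -
        (q ^ 2 * ((S'.o k : ℝ) / (q * a) - p k) + e / a ^ 2 * (s j S'.τ k - v k))| ≤ C * q ^ 2 * u1 := by
      intro k
      have h3 := eo k
      rw [hb, ← ha] at h3
      have h4 : (S.o k : ℝ) / a - (q ^ 2 * p k + e / a ^ 2 * v k) -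
        (q ^ 2 * ((S'.o k : ℝ) / (q * a) - p k) + e / a ^ 2 * (s j S'.τ k - v k)) =
        (a * (S.o k : ℝ) - (q * a * (S'.o k : ℝ) + e * s j S'.τ k)) / a ^ 2 := by
        field_simp
        ring
      rw [h4, abs_div, abs_of_pos (by positivity : (0:ℝ) < a ^ 2), div_le_iff₀ (by positivity)]
      refine h3.trans ?_
      have h5 : C * q * a * 1 ≤ C * q * a * (u1 * (q * a)) := by gcongr
      calc C * (q * a) = C * q * a * 1 := by ring
        _ ≤ C * q * a * (u1 * (q * a)) := h5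
        _ = C * q ^ 2 * u1 * a ^ 2 := by ring
    have hdec : ∀ k, (S.o k : ℝ) / 2 ^ (i * n) - (q ^ 2 * p k + e / a ^ 2 * v k) =
        (q ^ 2 * ((S'.o k : ℝ) / 2 ^ (j * n) - p k) + e / a ^ 2 * (s j S'.τ k - v k)) +
        ((S.o k : ℝ) / a - (q ^ 2 * p k + e / a ^ 2 * v k) -
        (q ^ 2 * ((S'.o k : ℝ) / (q * a) - p k) + e / a ^ 2 * (s j S'.τ k - v k))) := by
      intro k
      rw [hb, ← ha]
      ring
    have hsl : ∀ k, |s i S.τ k - s j S'.τ k| ≤ C * q * u1 := by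
      intro k
      have h3 := hgp.sl k
      simp only at h3
      rw [abs_sub_comm, ← ha] at h3
      refine h3.trans ?_
      rw [div_le_iff₀ ha0]
      have h5 : C * 1 ≤ C * (u1 * (q * a)) := by gcongr
      calc C = C * 1 := by ring
        _ ≤ C * (u1 * (q * a)) := h5
        _ = C * q * u1 * a := by ring
    have hsdec : ∀ k, s i S.τ k - v k = (s j S'.τ k - v k) + (s i S.τ k - s j S'.τ k) := fun k => by ring
    have hq2 : 0 ≤ q ^ 2 := by positivity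
    refine ⟨⟨S', hr⟩, hS.2, ?_, ?_, ?_, ?_⟩
    · simp only [hdec]
      rw [fw_add327, fw_add327, fw_smul327, fw_smul327]
      have h5 := abs_fw_le327 (θ := θ) herr
      calc |q ^ 2 * fw θ (fun j_1 => (S'.o j_1 : ℝ) / 2 ^ (j * n) - p j_1) +
            e / a ^ 2 * fw θ (fun j_1 => s j S'.τ j_1 - v j_1) + fw θ _| ≤
          |q ^ 2 * fw θ (fun j_1 => (S'.o j_1 : ℝ) / 2 ^ (j * n) - p j_1)| +
            |e / a ^ 2 * fw θ (fun j_1 => s j S'.τ j_1 - v j_1)| + |fw θ _| := abs_add_three _ _ _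
        _ ≤ q ^ 2 * u2 + q ^ 2 * u2 + 2 * (C * q ^ 2 * u1) := by
            rw [abs_mul, abs_mul, abs_of_nonneg hq2, abs_of_nonneg he0]
            gcongr
        _ ≤ q ^ 2 * w2 + q ^ 2 * w2 + 2 * (C * q ^ 2 * w2) := by gcongr; exact hu1w.trans hw12
        _ = (2 + 2 * C) * q ^ 2 * w2 := by ring
    · simp only [hdec]
      rw [fn_add327, fn_add327, fn_smul327, fn_smul327]
      have h5 := abs_fn_le327 (θ := θ) herr
      calc |q ^ 2 * fn θ (fun j_1 => (S'.o j_1 : ℝ) / 2 ^ (j * n) - p j_1) +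
            e / a ^ 2 * fn θ (fun j_1 => s j S'.τ j_1 - v j_1) + fn θ _| ≤
          |q ^ 2 * fn θ (fun j_1 => (S'.o j_1 : ℝ) / 2 ^ (j * n) - p j_1)| +
            |e / a ^ 2 * fn θ (fun j_1 => s j S'.τ j_1 - v j_1)| + |fn θ _| := abs_add_three _ _ _
        _ ≤ q ^ 2 * u1 + q ^ 2 * u1 + 2 * (C * q ^ 2 * u1) := by
            rw [abs_mul, abs_mul, abs_of_nonneg hq2, abs_of_nonneg he0]
            gcongr
        _ ≤ q ^ 2 * w1 + q ^ 2 * w1 + 2 * (C * q ^ 2 * w1) := by gcongr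
        _ = (2 + 2 * C) * q ^ 2 * w1 := by ring
    · simp only [hsdec]
      rw [fw_add327]
      have h5 := abs_fw_le327 (θ := θ) hsl
      calc |fw θ (fun j_1 => s j S'.τ j_1 - v j_1) + fw θ (fun j_1 => s i S.τ j_1 - s j S'.τ j_1)| ≤
          |fw θ (fun j_1 => s j S'.τ j_1 - v j_1)| + |fw θ (fun j_1 => s i S.τ j_1 - s j S'.τ j_1)| := abs_add_le _ _
        _ ≤ 1 * u2 + 2 * (C * q * u1) := by rw [one_mul]; gcongr
        _ ≤ q * w2 + 2 * (C * q * w2) := by gcongr; exact hu1w.trans hw12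
        _ = (1 + 2 * C) * q * w2 := by ring
    · simp only [hsdec]
      rw [fn_add327]
      have h5 := abs_fn_le327 (θ := θ) hsl
      calc |fn θ (fun j_1 => s j S'.τ j_1 - v j_1) + fn θ (fun j_1 => s i S.τ j_1 - s j S'.τ j_1)| ≤
          |fn θ (fun j_1 => s j S'.τ j_1 - v j_1)| + |fn θ (fun j_1 => s i S.τ j_1 - s j S'.τ j_1)| := abs_add_le _ _
        _ ≤ 1 * u1 + 2 * (C * q * u1) := by rw [one_mul]; gcongr
        _ ≤ q * w1 + 2 * (C * q * w1) := by gcongr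
        _ = (1 + 2 * C) * q * w1 := by ring
  have hVc : (V.card : ℝ) ≤ q ^ 2 *
      (((2 + 2 * C) * q ^ 2 + 1) ^ 2 * ((1 + 2 * C) * q + 1) ^ 2 * (lam * (w1 * w2 * 2 ^ (2 * i * n)))) := by
    have h3 : V.card = ∑ t ∈ Ico (2 ^ (2 * (j - i) * n) * T) (2 ^ (2 * (j - i) * n) * (T + 1)),
      (V.filter fun S => S.T = t).card := card_eq_sum_card_fiberwise hVT
    calc (V.card : ℝ) = ∑ t ∈ Ico (2 ^ (2 * (j - i) * n) * T) (2 ^ (2 * (j - i) * n) * (T + 1)),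
          ((V.filter fun S => S.T = t).card : ℝ) := by rw [h3]; push_cast; rfl
      _ ≤ ∑ _t ∈ Ico (2 ^ (2 * (j - i) * n) * T) (2 ^ (2 * (j - i) * n) * (T + 1)),
          (((2 + 2 * C) * q ^ 2 + 1) ^ 2 * ((1 + 2 * C) * q + 1) ^ 2 * (lam * (w1 * w2 * 2 ^ (2 * i * n)))) :=
        sum_le_sum hVf
      _ = _ := by
        rw [sum_const, nsmul_eq_mul, card_ico327]
        congr 1
        push_cast
        rw [hq, ← pow_mul]
        congr 1
        ring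
  have hw : w1 * w2 * 2 ^ (2 * i * n) ≤ u1 * u2 * 2 ^ (2 * j * n) := by
    rw [hb2, ha2]
    calc w1 * w2 * a ^ 2 ≤ (q * u1) * (q * u2) * a ^ 2 := by gcongr
      _ = _ := by ring
  have hA : (2 + 2 * C) * q ^ 2 + 1 ≤ (3 + 2 * C) * q ^ 2 := by nlinarith
  have hB : (1 + 2 * C) * q + 1 ≤ (2 + 2 * C) * q := by nlinarith
  calc (U.card : ℝ) ≤ (((2 ^ ((j - i) * n)) ^ 2 * (2 * ⌈C⌉₊ + 2) ^ 2 * V.card : ℕ) : ℝ) := by exact_mod_cast hc1
    _ = q ^ 2 * (2 * (⌈C⌉₊ : ℝ) + 2) ^ 2 * V.card := by push_cast; rw [hq]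
    _ ≤ q ^ 2 * (2 * (⌈C⌉₊ : ℝ) + 2) ^ 2 * (q ^ 2 *
      (((3 + 2 * C) * q ^ 2) ^ 2 * ((2 + 2 * C) * q) ^ 2 * (lam * (u1 * u2 * 2 ^ (2 * j * n))))) := by
        gcongr
        refine hVc.trans ?_
        gcongr
    _ = _ := by ring

theorem e5Dn_of (hG : E5Geo) : E5Dn := by
  intro K F i j e hK hij hj hE ε hε
  obtain ⟨C, hC, hgeo⟩ := hG F
  have hK0 : (0:ℝ) < K := by exact_mod_cast hK
  set B : ℝ := (2 * (⌈C⌉₊ : ℝ) + 2) ^ 2 * (3 + 2 * C) ^ 2 * (2 + 2 * C) ^ 2 with hB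
  have hB0 : 0 ≤ B := by positivity
  -- constants are absorbed
  have hL : ∀ᶠ ι in (uf : Filter ℕ), B ≤ (2:ℝ) ^ (ε / 2 * F.S.L ι) := by
    have h1 : Tendsto (fun ι => (2:ℝ) ^ (ε / 2 * (F.S.L ι : ℝ))) (uf : Filter ℕ) atTop := by
      have h2 : Tendsto (fun ι => ε / 2 * (F.S.L ι : ℝ)) (uf : Filter ℕ) atTop :=
        Tendsto.const_mul_atTop (by positivity) (tendsto_natCast_atTop_atTop.comp F.S.Ltop)
      exact (tendsto_rpow_atTop_of_base_gt_one 2 (by norm_num)).comp h2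
    exact h1.eventually_ge_atTop B
  filter_upwards [hE (ε / 2) (by positivity), hL] with ι h1 h2
  set R : Set (Nd × Nd) := {x | ∃ ω, 0 < (F.S.P ι).w ω ∧ x = (F.N i ι ω, F.N j ι ω)} with hR
  have hRgp : ∀ x ∈ R, GP327 (F.s ι) (F.n ι) i j C x.1 x.2 := by
    rintro x ⟨ω, hω, rfl⟩
    obtain ⟨g1, g2, -, g4, g5, g6, g7⟩ := hgeo ι ω hω i j hij hj
    exact ⟨g1, g2, g4, g5, g6, g7⟩
  have hDi : {S | ∃ S', (S, S') ∈ R} = {S | ∃ ω, 0 < (F.S.P ι).w ω ∧ F.N i ι ω = S} := by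
    ext S
    constructor
    · rintro ⟨S', ω, hω, h⟩
      exact ⟨ω, hω, (congrArg Prod.fst h).symm⟩
    · rintro ⟨ω, hω, rfl⟩
      exact ⟨_, ω, hω, rfl⟩
  have hDj : {S' | ∃ S, (S, S') ∈ R} = {S | ∃ ω, 0 < (F.S.P ι).w ω ∧ F.N j ι ω = S} := by
    ext S
    constructor
    · rintro ⟨S', ω, hω, h⟩
      exact ⟨ω, hω, (congrArg Prod.snd h).symm⟩
    · rintro ⟨ω, hω, rfl⟩
      exact ⟨_, ω, hω, rfl⟩
  have hmain := dn_dens327 hC hij R hRgp (lam := (2:ℝ) ^ ((e + ε / 2) * F.S.L ι)) (by positivity) (by rw [hDi]; exact h1)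
  rw [hDj] at hmain
  intro θ u1 u2 p v T U k1 k12 k2 hU
  refine (hmain θ u1 u2 p v T U k1 k12 k2 hU).trans ?_
  have hu1 : 0 < u1 := lt_of_lt_of_le (by positivity) k1
  have hu2 : 0 < u2 := hu1.trans_le k12
  refine mul_le_mul_of_nonneg_right ?_ (by positivity)
  have hq : ((2:ℝ) ^ ((j - i) * F.n ι)) ^ 10 ≤ (2:ℝ) ^ (20 * ((j:ℝ) - i) / K * F.S.L ι) := by
    rw [F.L_eq ι, ← pow_mul, ← Real.rpow_natCast]
    refine Real.rpow_le_rpow_of_exponent_le (by norm_num) ?_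
    push_cast [Nat.cast_sub hij]
    have h3 : (0:ℝ) ≤ ((j:ℝ) - i) * F.n ι := by
      have : (i:ℝ) ≤ j := by exact_mod_cast hij
      have h4 : (0:ℝ) ≤ F.n ι := Nat.cast_nonneg _
      exact mul_nonneg (by linarith) h4
    have h5 : 20 * ((j:ℝ) - i) / K * (K * F.n ι) = 20 * (((j:ℝ) - i) * F.n ι) := by field_simp
    rw [h5]
    linarith
  calc B * ((2:ℝ) ^ ((j - i) * F.n ι)) ^ 10 * (2:ℝ) ^ ((e + ε / 2) * F.S.L ι) ≤
      (2:ℝ) ^ (ε / 2 * F.S.L ι) * (2:ℝ) ^ (20 * ((j:ℝ) - i) / K * F.S.L ι) * (2:ℝ) ^ ((e + ε / 2) * F.S.L ι) := by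
        gcongr
    _ = (2:ℝ) ^ ((e + 20 * ((j:ℝ) - i) / K + ε) * F.S.L ι) := by
        rw [← Real.rpow_add (by norm_num), ← Real.rpow_add (by norm_num)]
        congr 1
        ring

end Vale.Agent.P122.E
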